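import Mathlib

/-!
# P355: Butson-type vectors in dimension six are never unbiased for many root orders

For `u v : Fin 6 → ℂ` whose coordinates are all `q`-th roots of unity, the unit vectors `u/√6`, `v/√6`
are unbiased (`|⟨u/√6, v/√6⟩|² = 1/6`) iff `|∑ conj(u i) * v i|² = 6`.  We show that this never
happens for `q = 6` (hence `q = 1, 2, 3`), for `q = 4`, and for `q = p ^ k` with `p ≥ 7` prime,
while it does happen for `q = 8`.
-/

namespace Vale.Agent.Results.P355.ButsonPairs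

open Complex Finset Polynomial

noncomputable section


/-- a fixed primitive cube root of unity -/
def om : ℂ := ⟨-1/2, Real.sqrt 3 / 2⟩

lemma om_sq_add : om ^ 2 + om + 1 = 0 := by
  have h3 : Real.sqrt 3 * Real.sqrt 3 = 3 := Real.mul_self_sqrt (by norm_num)
  apply Complex.ext
  · simp [om, pow_two]; nlinarith
  · simp [om, pow_two]; ring

lemma normSq_int_om (a b : ℤ) : Complex.normSq ((a : ℂ) + (b : ℂ) * om) = ((a ^ 2 - a * b + b ^ 2 : ℤ) : ℝ) := by
  have h3 : Real.sqrt 3 * Real.sqrt 3 = 3 := Real.mul_self_sqrt (by norm_num)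
  simp [Complex.normSq_apply, om]
  nlinarith

lemma eisenstein_ne_six (a b : ℤ) : a ^ 2 - a * b + b ^ 2 ≠ 6 := by
  intro h
  have ha : a ^ 2 ≤ 8 := by nlinarith [sq_nonneg (a - 2 * b)]
  have hb : b ^ 2 ≤ 8 := by nlinarith [sq_nonneg (b - 2 * a)]
  have ha1 : -3 < a := by nlinarith
  have ha2 : a < 3 := by nlinarith
  have hb1 : -3 < b := by nlinarith
  have hb2 : b < 3 := by nlinarith
  interval_cases a <;> interval_cases b <;> omega

lemma gauss_ne_six (a b : ℤ) : a ^ 2 + b ^ 2 ≠ 6 := by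
  intro h
  have ha1 : -3 < a := by nlinarith [sq_nonneg b]
  have ha2 : a < 3 := by nlinarith [sq_nonneg b]
  have hb1 : -3 < b := by nlinarith [sq_nonneg a]
  have hb2 : b < 3 := by nlinarith [sq_nonneg a]
  interval_cases a <;> interval_cases b <;> omega

/-- every sixth root of unity is `a + b * om` with integers `a, b` -/
lemma sixth_root_form (z : ℂ) (hz : z ^ 6 = 1) : ∃ a b : ℤ, z = (a : ℂ) + (b : ℂ) * om := by
  have hom := om_sq_add
  have hfac : (z - 1) * (z + 1) * ((z - om) * (z + 1 + om)) * ((z + om) * (z - 1 - om)) = 0 := by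
    have e1 : (z - om) * (z + 1 + om) = z ^ 2 + z + 1 - (om ^ 2 + om + 1) := by ring
    have e2 : (z + om) * (z - 1 - om) = z ^ 2 - z + 1 - (om ^ 2 + om + 1) := by ring
    rw [e1, e2, hom]
    have : (z - 1) * (z + 1) * (z ^ 2 + z + 1 - 0) * (z ^ 2 - z + 1 - 0) = z ^ 6 - 1 := by ring
    rw [this, hz]; ring
  rcases mul_eq_zero.1 hfac with h | h
  · rcases mul_eq_zero.1 h with h | h
    · rcases mul_eq_zero.1 h with h | h
      · exact ⟨1, 0, by linear_combination h⟩
      · exact ⟨-1, 0, by push_cast; linear_combination h⟩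
    · rcases mul_eq_zero.1 h with h | h
      · exact ⟨0, 1, by push_cast; linear_combination h⟩
      · exact ⟨-1, -1, by push_cast; linear_combination h⟩
  · rcases mul_eq_zero.1 h with h | h
    · exact ⟨0, -1, by push_cast; linear_combination h⟩
    · exact ⟨1, 1, by push_cast; linear_combination h⟩

/-- every fourth root of unity is `a + b * I` with integers `a, b` -/
lemma fourth_root_form (z : ℂ) (hz : z ^ 4 = 1) : ∃ a b : ℤ, z = (a : ℂ) + (b : ℂ) * I := by
  have hfac : (z - 1) * (z + 1) * ((z - I) * (z + I)) = 0 := by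
    have e1 : (z - I) * (z + I) = z ^ 2 - I ^ 2 := by ring
    rw [e1, I_sq]
    have : (z - 1) * (z + 1) * (z ^ 2 - -1) = z ^ 4 - 1 := by ring
    rw [this, hz]; ring
  rcases mul_eq_zero.1 hfac with h | h
  · rcases mul_eq_zero.1 h with h | h
    · exact ⟨1, 0, by push_cast; linear_combination h⟩
    · exact ⟨-1, 0, by push_cast; linear_combination h⟩
  · rcases mul_eq_zero.1 h with h | h
    · exact ⟨0, 1, by push_cast; linear_combination h⟩
    · exact ⟨0, -1, by push_cast; linear_combination h⟩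

lemma normSq_int_I (a b : ℤ) : Complex.normSq ((a : ℂ) + (b : ℂ) * I) = ((a ^ 2 + b ^ 2 : ℤ) : ℝ) := by
  simp [Complex.normSq_apply]
  ring

theorem sixth (u v : Fin 6 → ℂ) (hu : ∀ i, u i ^ 6 = 1) (hv : ∀ i, v i ^ 6 = 1) :
    Complex.normSq (∑ i, (starRingEnd ℂ) (u i) * v i) ≠ 6 := by
  have hw : ∀ i, ((starRingEnd ℂ) (u i) * v i) ^ 6 = 1 := by
    intro i
    rw [mul_pow, ← map_pow, hu i, hv i]; simp
  choose a b hab using fun i => sixth_root_form _ (hw i)
  have : ∑ i, (starRingEnd ℂ) (u i) * v i = ((∑ i, a i : ℤ) : ℂ) + ((∑ i, b i : ℤ) : ℂ) * om := by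
    simp_rw [hab]
    push_cast
    rw [Finset.sum_add_distrib, Finset.sum_mul]
  rw [this, normSq_int_om]
  intro h
  have h6 : ((6 : ℤ) : ℝ) = 6 := by norm_num
  rw [← h6] at h
  exact eisenstein_ne_six _ _ (by exact_mod_cast h)

theorem fourth (u v : Fin 6 → ℂ) (hu : ∀ i, u i ^ 4 = 1) (hv : ∀ i, v i ^ 4 = 1) :
    Complex.normSq (∑ i, (starRingEnd ℂ) (u i) * v i) ≠ 6 := by
  have hw : ∀ i, ((starRingEnd ℂ) (u i) * v i) ^ 4 = 1 := by
    intro i
    rw [mul_pow, ← map_pow, hu i, hv i]; simp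
  choose a b hab using fun i => fourth_root_form _ (hw i)
  have : ∑ i, (starRingEnd ℂ) (u i) * v i = ((∑ i, a i : ℤ) : ℂ) + ((∑ i, b i : ℤ) : ℂ) * I := by
    simp_rw [hab]
    push_cast
    rw [Finset.sum_add_distrib, Finset.sum_mul]
  rw [this, normSq_int_I]
  intro h
  have h6 : ((6 : ℤ) : ℝ) = 6 := by norm_num
  rw [← h6] at h
  exact gauss_ne_six _ _ (by exact_mod_cast h)



theorem primepow (d : ℕ) (p k : ℕ) (hp : p.Prime) (hk : 0 < k) (hpd : ¬ p ∣ d * (d - 1))
    (u v : Fin d → ℂ) (hu : ∀ i, u i ^ (p ^ k) = 1) (hv : ∀ i, v i ^ (p ^ k) = 1) :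
    Complex.normSq (∑ i, (starRingEnd ℂ) (u i) * v i) ≠ d := by
  set q := p ^ k with hq
  have hqpos : 0 < q := pow_pos hp.pos k
  have : NeZero q := ⟨hqpos.ne'⟩
  obtain ⟨ζ, hζ⟩ : ∃ ζ : ℂ, IsPrimitiveRoot ζ q := ⟨_, Complex.isPrimitiveRoot_exp q hqpos.ne'⟩
  have hw : ∀ i, ((starRingEnd ℂ) (u i) * v i) ^ q = 1 := by
    intro i
    rw [mul_pow, ← map_pow, hu i, hv i]; simp
  choose f hf hfz using fun i => hζ.eq_pow_of_pow_eq_one (hw i)
  -- conj of ζ^f is ζ^(q-f)
  have hconj : ∀ i, (starRingEnd ℂ) (ζ ^ f i) = ζ ^ (q - f i) := by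
    intro i
    have h1 : ζ ^ f i * ζ ^ (q - f i) = 1 := by
      rw [← pow_add, Nat.add_sub_cancel' (hf i).le, hζ.pow_eq_one]
    have hn : ‖ζ ^ f i‖ = 1 := by
      rw [norm_pow, hζ.norm'_eq_one hqpos.ne', one_pow]
    have h2 : ζ ^ f i * (starRingEnd ℂ) (ζ ^ f i) = 1 := by
      rw [Complex.mul_conj, Complex.normSq_eq_norm_sq, hn]; simp
    have hne : ζ ^ f i ≠ 0 := by
      intro h0; rw [h0, zero_mul] at h1; exact zero_ne_one h1
    exact mul_left_cancel₀ hne (h2.trans h1.symm)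
  intro hN
  -- the polynomial
  let C : ℤ[X] := ∑ i : Fin d, ∑ j : Fin d, X ^ (f i + (q - f j)) - Polynomial.C (d : ℤ)
  have hS : (∑ i, (starRingEnd ℂ) (u i) * v i) = ∑ i, ζ ^ f i := by
    refine Finset.sum_congr rfl fun i _ => (hfz i).symm
  have hC : Polynomial.aeval ζ C = 0 := by
    have h1 : ((Complex.normSq (∑ i, (starRingEnd ℂ) (u i) * v i) : ℝ) : ℂ)
        = (∑ i, ζ ^ f i) * (starRingEnd ℂ) (∑ i, ζ ^ f i) := by
      rw [hS, Complex.mul_conj]
    rw [hN] at h1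
    simp only [C, map_sub, map_sum, map_pow, Polynomial.aeval_X, Polynomial.aeval_C]
    have h2 : (∑ i : Fin d, ∑ j : Fin d, ζ ^ (f i + (q - f j))) = (∑ i, ζ ^ f i) * (starRingEnd ℂ) (∑ i, ζ ^ f i) := by
      rw [map_sum, Finset.sum_mul_sum]
      refine Finset.sum_congr rfl fun i _ => Finset.sum_congr rfl fun j _ => ?_
      rw [pow_add, hconj j]
    rw [h2, ← h1]
    simp
  have hdvd : Polynomial.cyclotomic q ℤ ∣ C := by
    have hmin : Polynomial.cyclotomic q ℤ = minpoly ℤ ζ := Polynomial.cyclotomic_eq_minpoly hζ hqpos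
    rw [hmin]
    exact minpoly.isIntegrallyClosed_dvd (hζ.isIntegral hqpos) hC
  have hev1 : (Polynomial.cyclotomic q ℤ).eval 1 = p := by
    obtain ⟨k', rfl⟩ := Nat.exists_eq_succ_of_ne_zero hk.ne'
    have := Fact.mk hp
    rw [hq]
    exact Polynomial.eval_one_cyclotomic_prime_pow (R := ℤ) k'
  have hCev : C.eval 1 = (d : ℤ) * d - d := by
    simp [C, Polynomial.eval_finsetSum]
  have hdiv : (p : ℤ) ∣ (d : ℤ) * d - d := by
    rw [← hev1, ← hCev]
    exact Polynomial.eval_dvd hdvd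
  apply hpd
  have : (d : ℤ) * d - d = ((d * (d - 1) : ℕ) : ℤ) := by
    rcases Nat.eq_zero_or_pos d with h0 | h0
    · subst h0; simp
    · push_cast [Nat.cast_sub h0]; ring
  rw [this] at hdiv
  exact_mod_cast hdiv


/-- `ButsonUnbiasedPair q`: there are two vectors of `ℂ^6` all of whose coordinates are `q`-th roots of
unity and whose Hermitian inner product `∑ conj(u i) * v i` has squared modulus `6`
(equivalently, `u/√6` and `v/√6` are unit vectors with `|⟨u/√6, v/√6⟩|² = 1/6`). -/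
def ButsonUnbiasedPair (q : ℕ) : Prop :=
  ∃ u v : Fin 6 → ℂ, (∀ i, u i ^ q = 1) ∧ (∀ i, v i ^ q = 1) ∧
    Complex.normSq (∑ i, (starRingEnd ℂ) (u i) * v i) = 6

theorem exists_eight : ButsonUnbiasedPair 8 := by
  have h2 : Real.sqrt 2 * Real.sqrt 2 = 2 := Real.mul_self_sqrt (by norm_num)
  let z : ℂ := ⟨Real.sqrt 2 / 2, Real.sqrt 2 / 2⟩
  have hz2 : z ^ 2 = I := by
    apply Complex.ext
    · simp [z, pow_two]
    · simp [z, pow_two]; nlinarith
  have hz4 : z ^ 4 = -1 := by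
    have : z ^ 4 = (z ^ 2) ^ 2 := by ring
    rw [this, hz2, I_sq]
  have hz8 : z ^ 8 = 1 := by
    have : z ^ 8 = (z ^ 4) ^ 2 := by ring
    rw [this, hz4]; norm_num
  refine ⟨fun _ => 1, ![1, z, z ^ 3, z ^ 2, z ^ 3, z ^ 5], fun i => one_pow _, ?_, ?_⟩
  · intro i
    fin_cases i
    · simp
    · simpa using hz8
    · show (z ^ 3) ^ 8 = 1
      have : (z ^ 3) ^ 8 = (z ^ 8) ^ 3 := by ring
      rw [this, hz8, one_pow]
    · show (z ^ 2) ^ 8 = 1
      have : (z ^ 2) ^ 8 = (z ^ 8) ^ 2 := by ring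
      rw [this, hz8, one_pow]
    · show (z ^ 3) ^ 8 = 1
      have : (z ^ 3) ^ 8 = (z ^ 8) ^ 3 := by ring
      rw [this, hz8, one_pow]
    · show (z ^ 5) ^ 8 = 1
      have : (z ^ 5) ^ 8 = (z ^ 8) ^ 5 := by ring
      rw [this, hz8, one_pow]
  · have hsum : (∑ i : Fin 6, (starRingEnd ℂ) ((fun _ => (1 : ℂ)) i) * (![1, z, z ^ 3, z ^ 2, z ^ 3, z ^ 5] : Fin 6 → ℂ) i)
        = 1 + I + 2 * I * z := by
      simp [Fin.sum_univ_succ]
      have h3 : z ^ 3 = I * z := by rw [← hz2]; ring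
      have h5 : z ^ 5 = -z := by
        have : z ^ 5 = z ^ 4 * z := by ring
        rw [this, hz4]; ring
      rw [h3, h5, hz2]; ring
    rw [hsum]
    simp [Complex.normSq_apply, z]
    nlinarith

/-- **Main result.** No two vectors of `ℂ^6` with all coordinates sixth roots of unity, or all
coordinates fourth roots of unity, or all coordinates `p^k`-th roots of unity (`p ≥ 7` prime,
`k ≥ 1`), have Hermitian inner product of squared modulus `6`; with eighth roots of unity such a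
pair exists. -/
theorem result :
    ¬ ButsonUnbiasedPair 6 ∧ ¬ ButsonUnbiasedPair 4 ∧
    (∀ p k : ℕ, p.Prime → 7 ≤ p → 0 < k → ¬ ButsonUnbiasedPair (p ^ k)) ∧
    ButsonUnbiasedPair 8 := by
  refine ⟨?_, ?_, ?_, exists_eight⟩
  · rintro ⟨u, v, hu, hv, h⟩
    exact sixth u v hu hv h
  · rintro ⟨u, v, hu, hv, h⟩
    exact fourth u v hu hv h
  · rintro p k hp h7 hk ⟨u, v, hu, hv, h⟩
    have hpd : ¬ p ∣ 6 * (6 - 1) := by
      intro hd
      have : p ≤ 30 := Nat.le_of_dvd (by norm_num) hd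
      interval_cases p <;> simp_all (config := {decide := true})
    exact primepow 6 p k hp hk hpd u v hu hv (by exact_mod_cast h)

end

end Vale.Agent.Results.P355.ButsonPairs
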