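import Mathlib

namespace Vale.Agent.Results.P355.RationalFields

open Complex

/-- common denominator for two rationals -/
theorem clear_den (a b : ℚ) :
    ∃ (d : ℕ) (x y : ℤ), 0 < d ∧ a = (x : ℚ) / (d : ℚ) ∧ b = (y : ℚ) / (d : ℚ) := by
  have h1 : (a.den : ℚ) ≠ 0 := by exact_mod_cast a.den_ne_zero
  have h2 : (b.den : ℚ) ≠ 0 := by exact_mod_cast b.den_ne_zero
  refine ⟨a.den * b.den, a.num * b.den, b.num * a.den, Nat.mul_pos a.den_pos b.den_pos, ?_, ?_⟩
  · conv_lhs => rw [← Rat.num_div_den a]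
    push_cast
    field_simp
  · conv_lhs => rw [← Rat.num_div_den b]
    push_cast
    field_simp

/-- six is not a sum of two rational squares -/
theorem six_ne_sum_two_squares (a b : ℚ) : a ^ 2 + b ^ 2 ≠ 6 := by
  intro h
  obtain ⟨d, x, y, hdpos, hax, hby⟩ := clear_den a b
  have hdq : (d : ℚ) ≠ 0 := by exact_mod_cast hdpos.ne'
  have hint : x ^ 2 + y ^ 2 = 6 * (d : ℤ) ^ 2 := by
    have : ((x : ℚ)) ^ 2 + (y : ℚ) ^ 2 = 6 * (d : ℚ) ^ 2 := by
      rw [hax, hby] at h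
      field_simp at h
      linarith
    exact_mod_cast this
  have hnat : 6 * d ^ 2 = x.natAbs ^ 2 + y.natAbs ^ 2 := by
    have : ((6 * d ^ 2 : ℕ) : ℤ) = ((x.natAbs ^ 2 + y.natAbs ^ 2 : ℕ) : ℤ) := by
      push_cast
      rw [sq_abs, sq_abs]
      linarith
    exact_mod_cast this
  have hex : ∃ p q : ℕ, 6 * d ^ 2 = p ^ 2 + q ^ 2 := ⟨_, _, hnat⟩
  have hmem : 3 ∈ (6 * d ^ 2).primeFactors := by
    rw [Nat.mem_primeFactors]
    refine ⟨Nat.prime_three, Dvd.dvd.mul_right (by norm_num) _, ?_⟩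
    exact Nat.mul_ne_zero (by norm_num) (pow_ne_zero 2 hdpos.ne')
  have hev := (Nat.eq_sq_add_sq_iff.mp hex) 3 hmem (by norm_num)
  have : Fact (Nat.Prime 3) := ⟨Nat.prime_three⟩
  have hval : padicValNat 3 (6 * d ^ 2) = 1 + 2 * padicValNat 3 d := by
    rw [padicValNat.mul (by norm_num) (pow_ne_zero 2 hdpos.ne'), padicValNat.pow]
    have h6 : padicValNat 3 6 = 1 := by
      have h23 : (6 : ℕ) = 2 * 3 := by norm_num
      rw [h23, padicValNat.mul (by norm_num) (by norm_num), padicValNat.self (by norm_num)]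
      have h0 : padicValNat 3 2 = 0 := padicValNat.eq_zero_of_not_dvd (by norm_num)
      rw [h0]
    rw [h6]
  rw [hval] at hev
  rcases hev with ⟨t, ht⟩
  omega

/-- the Eisenstein norm form does not represent six times a nonzero square -/
theorem eis_descent (d : ℕ) : ∀ x y : ℤ, x ^ 2 - x * y + y ^ 2 = 6 * (d : ℤ) ^ 2 → d = 0 := by
  induction d using Nat.strong_induction_on with
  | _ d ih =>
    intro x y h
    by_contra hd0
    have hz : ((x : ZMod 2)) ^ 2 - (x : ZMod 2) * (y : ZMod 2) + (y : ZMod 2) ^ 2 = 0 := by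
      have := congrArg (Int.cast : ℤ → ZMod 2) h
      push_cast at this
      rw [this]
      have : (6 : ZMod 2) = 0 := by decide
      rw [this, zero_mul]
    have hdec : ∀ p q : ZMod 2, p ^ 2 - p * q + q ^ 2 = 0 → p = 0 ∧ q = 0 := by decide
    obtain ⟨hx0, hy0⟩ := hdec _ _ hz
    obtain ⟨x', rfl⟩ := (ZMod.intCast_zmod_eq_zero_iff_dvd x 2).mp hx0
    obtain ⟨y', rfl⟩ := (ZMod.intCast_zmod_eq_zero_iff_dvd y 2).mp hy0
    have h2 : 2 * (x' ^ 2 - x' * y' + y' ^ 2) = 3 * (d : ℤ) ^ 2 := by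
      have : ((2 : ℕ) : ℤ) = 2 := by norm_num
      rw [this] at h
      nlinarith [h]
    have hdz : ((d : ℤ) : ZMod 2) = 0 := by
      have := congrArg (Int.cast : ℤ → ZMod 2) h2
      push_cast at this
      have h20 : (2 : ZMod 2) = 0 := by decide
      rw [h20, zero_mul] at this
      have hdec2 : ∀ c : ZMod 2, 0 = 3 * c ^ 2 → c = 0 := by decide
      have := hdec2 _ this
      exact_mod_cast this
    obtain ⟨d', hd'⟩ := (ZMod.intCast_zmod_eq_zero_iff_dvd (d : ℤ) 2).mp hdz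
    have hd'nn : 0 ≤ d' := by
      have : (0 : ℤ) ≤ d := Int.natCast_nonneg d
      have h2' : ((2 : ℕ) : ℤ) = 2 := by norm_num
      rw [hd', h2'] at this
      linarith
    obtain ⟨e, rfl⟩ := Int.eq_ofNat_of_zero_le hd'nn
    have h2' : ((2 : ℕ) : ℤ) = 2 := by norm_num
    rw [h2'] at hd'
    have hde : d = 2 * e := by exact_mod_cast hd'
    have he : e < d := by omega
    have h3 : x' ^ 2 - x' * y' + y' ^ 2 = 6 * (e : ℤ) ^ 2 := by
      rw [hd'] at h2
      nlinarith [h2]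
    have := ih e he x' y' h3
    omega

theorem six_ne_eisenstein (a b : ℚ) : a ^ 2 - a * b + b ^ 2 ≠ 6 := by
  intro h
  obtain ⟨d, x, y, hdpos, hax, hby⟩ := clear_den a b
  have hdq : (d : ℚ) ≠ 0 := by exact_mod_cast hdpos.ne'
  have hint : x ^ 2 - x * y + y ^ 2 = 6 * (d : ℤ) ^ 2 := by
    have : ((x : ℚ)) ^ 2 - (x : ℚ) * (y : ℚ) + (y : ℚ) ^ 2 = 6 * (d : ℚ) ^ 2 := by
      rw [hax, hby] at h
      field_simp at h
      linarith
    exact_mod_cast this
  have := eis_descent d x y hint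
  omega

/-- Gaussian rationals -/
def IsG (z : ℂ) : Prop := ∃ a b : ℚ, z = (a : ℂ) + (b : ℂ) * Complex.I

/-- Eisenstein rationals; `⟨-1/2, √3/2⟩` is a primitive cube root of unity -/
def IsE (z : ℂ) : Prop := ∃ a b : ℚ, z = (a : ℂ) + (b : ℂ) * (⟨-1 / 2, Real.sqrt 3 / 2⟩ : ℂ)

theorem omega_sq : (⟨-1 / 2, Real.sqrt 3 / 2⟩ : ℂ) * ⟨-1 / 2, Real.sqrt 3 / 2⟩
    = -1 - (⟨-1 / 2, Real.sqrt 3 / 2⟩ : ℂ) := by
  have h3 : Real.sqrt 3 * Real.sqrt 3 = 3 := Real.mul_self_sqrt (by norm_num)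
  apply Complex.ext
  · simp only [Complex.mul_re, Complex.sub_re, Complex.neg_re, Complex.one_re]
    nlinarith [h3]
  · simp only [Complex.mul_im, Complex.sub_im, Complex.neg_im, Complex.one_im]
    ring

theorem omega_conj : (starRingEnd ℂ) (⟨-1 / 2, Real.sqrt 3 / 2⟩ : ℂ)
    = -1 - (⟨-1 / 2, Real.sqrt 3 / 2⟩ : ℂ) := by
  apply Complex.ext
  · simp only [Complex.conj_re, Complex.sub_re, Complex.neg_re, Complex.one_re]; ring
  · simp only [Complex.conj_im, Complex.sub_im, Complex.neg_im, Complex.one_im]; ring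

theorem IsG.mul {z w : ℂ} (hz : IsG z) (hw : IsG w) : IsG (z * w) := by
  obtain ⟨a, b, rfl⟩ := hz
  obtain ⟨c, e, rfl⟩ := hw
  refine ⟨a * c - b * e, a * e + b * c, ?_⟩
  push_cast
  linear_combination (b : ℂ) * e * Complex.I_mul_I

theorem IsG.conj {z : ℂ} (hz : IsG z) : IsG ((starRingEnd ℂ) z) := by
  obtain ⟨a, b, rfl⟩ := hz
  refine ⟨a, -b, ?_⟩
  simp only [map_add, map_mul, Complex.conj_I, map_ratCast]
  push_cast; ring

theorem IsG.add {z w : ℂ} (hz : IsG z) (hw : IsG w) : IsG (z + w) := by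
  obtain ⟨a, b, rfl⟩ := hz
  obtain ⟨c, e, rfl⟩ := hw
  exact ⟨a + c, b + e, by push_cast; ring⟩

theorem IsE.mul {z w : ℂ} (hz : IsE z) (hw : IsE w) : IsE (z * w) := by
  obtain ⟨a, b, rfl⟩ := hz
  obtain ⟨c, e, rfl⟩ := hw
  refine ⟨a * c - b * e, a * e + b * c - b * e, ?_⟩
  push_cast
  linear_combination (b : ℂ) * e * omega_sq

theorem IsE.conj {z : ℂ} (hz : IsE z) : IsE ((starRingEnd ℂ) z) := by
  obtain ⟨a, b, rfl⟩ := hz
  refine ⟨a - b, -b, ?_⟩
  simp only [map_add, map_mul, map_ratCast, omega_conj]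
  push_cast; ring

theorem IsE.add {z w : ℂ} (hz : IsE z) (hw : IsE w) : IsE (z + w) := by
  obtain ⟨a, b, rfl⟩ := hz
  obtain ⟨c, e, rfl⟩ := hw
  exact ⟨a + c, b + e, by push_cast; ring⟩

theorem IsG.sum {n : ℕ} (f : Fin n → ℂ) (h : ∀ k, IsG (f k)) : IsG (∑ k, f k) := by
  have : ∀ s : Finset (Fin n), IsG (∑ k ∈ s, f k) := by
    intro s
    induction s using Finset.induction_on with
    | empty => exact ⟨0, 0, by simp⟩
    | insert i s hi ih => rw [Finset.sum_insert hi]; exact (h i).add ih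
  exact this _

theorem IsE.sum {n : ℕ} (f : Fin n → ℂ) (h : ∀ k, IsE (f k)) : IsE (∑ k, f k) := by
  have : ∀ s : Finset (Fin n), IsE (∑ k ∈ s, f k) := by
    intro s
    induction s using Finset.induction_on with
    | empty => exact ⟨0, 0, by simp⟩
    | insert i s hi ih => rw [Finset.sum_insert hi]; exact (h i).add ih
  exact this _

theorem IsG.normSq_ne {z : ℂ} (hz : IsG z) : Complex.normSq z ≠ 6 := by
  obtain ⟨a, b, rfl⟩ := hz
  intro h
  have h1 : Complex.normSq ((a : ℂ) + (b : ℂ) * Complex.I) = (a : ℝ) ^ 2 + (b : ℝ) ^ 2 := by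
    have := Complex.normSq_add_mul_I (a : ℝ) (b : ℝ)
    simpa using this
  rw [h1] at h
  have : (a : ℚ) ^ 2 + b ^ 2 = 6 := by exact_mod_cast h
  exact six_ne_sum_two_squares a b this

theorem IsE.normSq_ne {z : ℂ} (hz : IsE z) : Complex.normSq z ≠ 6 := by
  obtain ⟨a, b, rfl⟩ := hz
  intro h
  have h3 : Real.sqrt 3 * Real.sqrt 3 = 3 := Real.mul_self_sqrt (by norm_num)
  have h1 : Complex.normSq ((a : ℂ) + (b : ℂ) * (⟨-1 / 2, Real.sqrt 3 / 2⟩ : ℂ))
      = (a : ℝ) ^ 2 - (a : ℝ) * b + (b : ℝ) ^ 2 := by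
    rw [Complex.normSq_apply]
    simp only [Complex.add_re, Complex.add_im, Complex.mul_re, Complex.mul_im,
      Complex.ratCast_re, Complex.ratCast_im]
    nlinarith [h3]
  rw [h1] at h
  have : (a : ℚ) ^ 2 - a * b + b ^ 2 = 6 := by exact_mod_cast h
  exact six_ne_eisenstein a b this

/-- In dimension six, vectors with Gaussian-rational coordinates, and likewise vectors with
Eisenstein-rational coordinates, never have an inner product of squared modulus six. -/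
theorem result :
    (∀ u v : Fin 6 → ℂ,
      (∀ k, ∃ a b : ℚ, u k = (a : ℂ) + (b : ℂ) * Complex.I) →
      (∀ k, ∃ a b : ℚ, v k = (a : ℂ) + (b : ℂ) * Complex.I) →
      Complex.normSq (∑ k, (starRingEnd ℂ) (u k) * v k) ≠ 6) ∧
    (∀ u v : Fin 6 → ℂ,
      (∀ k, ∃ a b : ℚ, u k = (a : ℂ) + (b : ℂ) * (⟨-1 / 2, Real.sqrt 3 / 2⟩ : ℂ)) →
      (∀ k, ∃ a b : ℚ, v k = (a : ℂ) + (b : ℂ) * (⟨-1 / 2, Real.sqrt 3 / 2⟩ : ℂ)) →
      Complex.normSq (∑ k, (starRingEnd ℂ) (u k) * v k) ≠ 6) := by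
  refine ⟨fun u v hu hv => ?_, fun u v hu hv => ?_⟩
  · exact (IsG.sum _ fun k => (IsG.conj (hu k)).mul (hv k)).normSq_ne
  · exact (IsE.sum _ fun k => (IsE.conj (hu k)).mul (hv k)).normSq_ne

end Vale.Agent.Results.P355.RationalFields
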